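import Vale.Agent.P022.H116.Perm
import Vale.Agent.P024.H157.Her3

/-!
The Herbrand quotient of a group which contains, with finite index, a permutation module modulo
one relation.
-/

namespace Vale.Agent.P022.CFT

open Subgroup
open Vale.Agent.P024.H157 (hh herbrand_index prod_zpow_eq)

theorem zpowers_pow_relIndex {M : Type*} [CommGroup M] {κ : M} {N : ℕ}
    (hinf : ∀ k : ℤ, κ ^ k = 1 → k = 0) :
    (zpowers (κ ^ N)).relIndex (zpowers κ) = N := by
  have h9 : Function.Injective (zpowersHom M κ) := by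
    rw [injective_iff_map_eq_one]
    intro k hk
    have := hinf (Multiplicative.toAdd k) (by simpa [zpowersHom_apply] using hk)
    exact this
  have h10 : zpowers κ = (⊤ : Subgroup (Multiplicative ℤ)).map (zpowersHom M κ) := by
    rw [← MonoidHom.range_eq_map]
    ext x
    constructor
    · rintro ⟨k, rfl⟩
      exact ⟨Multiplicative.ofAdd k, by simp [zpowersHom_apply]⟩
    · rintro ⟨k, rfl⟩
      exact ⟨Multiplicative.toAdd k, by simp [zpowersHom_apply]⟩
  have h11 : zpowers (κ ^ N) = (zpowers (Multiplicative.ofAdd (N : ℤ))).map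
      (zpowersHom M κ) := by
    rw [MonoidHom.map_zpowers]
    congr 1
    simp [zpowersHom_apply]
  rw [h10, h11, relIndex_map_map_of_injective _ _ h9, relIndex_top_right]
  have h12 := Int.index_zmultiples (N : ℤ)
  rw [Int.natAbs_natCast] at h12
  have h13 : (zpowers (Multiplicative.ofAdd (N : ℤ))).index =
      (AddSubgroup.zmultiples (N : ℤ)).index := by
    rfl
  rw [h13, h12]

/-- The Herbrand quotient of a quotient of `M` by an infinite cyclic group on which `f` is zero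
and `g` is multiplication by `N`. -/
theorem herb_quot {M A : Type*} [CommGroup M] [CommGroup A] (φ : M →* A) (D' N' : M →* M)
    (D Nm : A →* A) (hD : ∀ m, φ (D' m) = D (φ m)) (hN : ∀ m, φ (N' m) = Nm (φ m))
    (hDN : ∀ m, D' (N' m) = 1) (hkN : N'.ker = D'.range) {δ : ℕ}
    (hδ : N'.range.relIndex D'.ker = δ) (hδ0 : δ ≠ 0) {κ : M} (hκ : φ.ker = zpowers κ)
    {c : ℕ} (hc : 0 < c) (hDκ : D' κ = 1) (hNκ : N' κ = κ ^ c)
    (hinf : ∀ k : ℤ, κ ^ k = 1 → k = 0) :
    c * hh Nm D φ.range = δ * hh D Nm φ.range ∧ hh Nm D φ.range ≠ 0 ∧ hh D Nm φ.range ≠ 0 := by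
  set W : Subgroup M := (zpowers κ).comap N' with hW
  have e1 : φ.range ⊓ Nm.ker = W.map φ := by
    ext x
    constructor
    · rintro ⟨⟨m, rfl⟩, hx⟩
      refine ⟨m, ?_, rfl⟩
      show N' m ∈ zpowers κ
      rw [← hκ, MonoidHom.mem_ker, hN]
      exact hx
    · rintro ⟨m, hm, rfl⟩
      refine ⟨⟨m, rfl⟩, ?_⟩
      have h2 : N' m ∈ zpowers κ := hm
      rw [← hκ, MonoidHom.mem_ker, hN] at h2
      exact h2
  have e2 : φ.range.map D = D'.range.map φ := by
    ext x
    constructor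
    · rintro ⟨_, ⟨m, rfl⟩, rfl⟩
      exact ⟨D' m, ⟨m, rfl⟩, hD m⟩
    · rintro ⟨_, ⟨m, rfl⟩, rfl⟩
      exact ⟨φ m, ⟨m, rfl⟩, (hD m).symm⟩
  have e3 : φ.range ⊓ D.ker = D'.ker.map φ := by
    ext x
    constructor
    · rintro ⟨⟨m, rfl⟩, hx⟩
      refine ⟨m, ?_, rfl⟩
      have h1 : D' m ∈ φ.ker := by
        rw [MonoidHom.mem_ker, hD]
        exact hx
      rw [hκ] at h1
      obtain ⟨t, ht⟩ := h1
      have ht' : κ ^ t = D' m := ht
      have h2 : D' m ∈ N'.ker := by rw [hkN]; exact ⟨m, rfl⟩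
      rw [MonoidHom.mem_ker, ← ht', map_zpow, hNκ, ← zpow_natCast, ← zpow_mul] at h2
      have h3 := hinf _ h2
      have h4 : t = 0 := by
        rcases mul_eq_zero.1 h3 with h | h
        · exact absurd h (by exact_mod_cast hc.ne')
        · exact h
      show D' m = 1
      rw [← ht', h4, zpow_zero]
    · rintro ⟨m, hm, rfl⟩
      refine ⟨⟨m, rfl⟩, ?_⟩
      show D (φ m) = 1
      rw [← hD, MonoidHom.mem_ker.1 hm, map_one]
  have e4 : φ.range.map Nm = N'.range.map φ := by
    ext x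
    constructor
    · rintro ⟨_, ⟨m, rfl⟩, rfl⟩
      exact ⟨N' m, ⟨m, rfl⟩, hN m⟩
    · rintro ⟨_, ⟨m, rfl⟩, rfl⟩
      exact ⟨φ m, ⟨m, rfl⟩, (hN m).symm⟩
  have h3 : zpowers κ ≤ W := by
    rw [zpowers_le]
    show N' κ ∈ zpowers κ
    rw [hNκ]
    exact pow_mem (mem_zpowers κ) c
  have h4 : D'.range ≤ W := by
    rw [← hkN]
    intro m hm
    show N' m ∈ zpowers κ
    rw [MonoidHom.mem_ker.1 hm]
    exact one_mem _
  have h5 : zpowers κ ≤ D'.ker := by
    rw [zpowers_le]
    exact hDκ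
  have h6 : N'.range ≤ D'.ker := by
    rintro _ ⟨m, rfl⟩
    exact hDN m
  -- h1
  have k1 : hh D Nm φ.range = (zpowers (κ ^ c)).relIndex (zpowers κ ⊓ N'.range) := by
    rw [hh, e1, e2, relIndex_map_map, hκ, sup_eq_left.2 h3]
    have h7 : W.map N' = zpowers κ ⊓ N'.range := by
      rw [hW, Subgroup.map_comap_eq, inf_comm]
    have h8 : (D'.range ⊔ zpowers κ).map N' = zpowers (κ ^ c) := by
      rw [Subgroup.map_sup, MonoidHom.map_zpowers, hNκ]
      have h7 : D'.range.map N' = ⊥ := by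
        rw [← hkN]
        exact (Subgroup.map_eq_bot_iff _).2 le_rfl
      rw [h7, bot_sup_eq]
    have h9 := relIndex_map_map N' (D'.range ⊔ zpowers κ) W
    rw [h7, h8, hkN, sup_eq_left.2 h4, sup_eq_left.2 le_sup_left] at h9
    exact h9.symm
  have k2 : hh Nm D φ.range = (N'.range ⊔ zpowers κ).relIndex D'.ker := by
    rw [hh, e3, e4, relIndex_map_map, hκ, sup_eq_left.2 h5]
  have k3 : N'.range.relIndex (zpowers κ) * hh Nm D φ.range = δ := by
    rw [k2, ← hδ, ← relIndex_mul_relIndex N'.range (N'.range ⊔ zpowers κ) D'.ker le_sup_left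
      (sup_le h6 h5), relIndex_sup_left]
  have k4 : hh D Nm φ.range * N'.range.relIndex (zpowers κ) = c := by
    have h7 : zpowers (κ ^ c) ≤ zpowers κ ⊓ N'.range := by
      rw [zpowers_le]
      exact ⟨pow_mem (mem_zpowers κ) c, ⟨κ, hNκ⟩⟩
    have h8 := relIndex_mul_relIndex _ _ _ h7 inf_le_left
    rw [inf_relIndex_left, zpowers_pow_relIndex hinf] at h8
    rw [k1, h8]
  have k5 : c * hh Nm D φ.range = δ * hh D Nm φ.range := by
    rw [← k3, ← k4]
    ring
  refine ⟨k5, ?_, ?_⟩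
  · intro h0
    rw [h0, mul_zero] at k3
    exact hδ0 k3.symm
  · intro h0
    rw [h0, zero_mul] at k4
    exact hc.ne k4

/-- Main statement on Herbrand quotients. -/
theorem herbX {G A X : Type} [Group G] [Fintype G] [CommGroup A] [Fintype X] [MulAction G X]
    (ρ : G →* MulAut A) {σ : G} (hσ : ∀ τ : G, τ ∈ zpowers σ)
    (D Nm : A →* A) (hD : ∀ x, D x = ρ σ x / x) (hN : ∀ x, Nm x = ∏ g, ρ g x)
    (U : Subgroup A) (hU : ∀ g, ∀ x ∈ U, ρ g x ∈ U) (u : X → A) (hu : ∀ x, u x ∈ U)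
    (hug : ∀ g x, u (g • x) = ρ g (u x)) (hfin : (closure (Set.range u)).relIndex U ≠ 0)
    (e : X → ℤ) (he0 : e ≠ 0) (heg : ∀ (g : G) x, e (g • x) = e x)
    (hrel : ∀ a : X → ℤ, ∏ x, u x ^ a x = 1 ↔ ∃ k : ℤ, a = k • e) :
    Nat.card G * (U.map Nm).relIndex (U ⊓ D.ker) =
        stabProd G X * (U.map D).relIndex (U ⊓ Nm.ker) ∧
      (U.map D).relIndex (U ⊓ Nm.ker) ≠ 0 ∧ (U.map Nm).relIndex (U ⊓ D.ker) ≠ 0 := by
  classical
  let Φ₀ : (X → ℤ) →+ Additive A :=
    { toFun := fun m => Additive.ofMul (∏ x, u x ^ m x)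
      map_zero' := by simp
      map_add' := fun a b => by
        rw [← ofMul_mul, ← Finset.prod_mul_distrib]
        congr 1
        refine Finset.prod_congr rfl fun p _ => ?_
        rw [Pi.add_apply, zpow_add] }
  let Φ : Multiplicative (X → ℤ) →* A := AddMonoidHom.toMultiplicativeLeft Φ₀
  have hΦ : ∀ m : X → ℤ, Φ (Multiplicative.ofAdd m) = ∏ x, u x ^ m x := fun m => rfl
  let f' : Multiplicative (X → ℤ) →* Multiplicative (X → ℤ) :=
    AddMonoidHom.toMultiplicative (gD X σ)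
  let g' : Multiplicative (X → ℤ) →* Multiplicative (X → ℤ) :=
    AddMonoidHom.toMultiplicative (gN G X)
  have hf'a : ∀ m : X → ℤ, f' (Multiplicative.ofAdd m) = Multiplicative.ofAdd (gD X σ m) :=
    fun m => rfl
  have hg'a : ∀ m : X → ℤ, g' (Multiplicative.ofAdd m) = Multiplicative.ofAdd (gN G X m) :=
    fun m => rfl
  have hact : ∀ (g : G) (m : X → ℤ), ρ g (∏ x, u x ^ m x) = ∏ x, u x ^ m (g⁻¹ • x) := by
    intro g m
    rw [map_prod]
    refine Fintype.prod_equiv (MulAction.toPerm g) _ _ ?_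
    intro x
    rw [MulAction.toPerm_apply, inv_smul_smul, map_zpow, hug]
  have hf : ∀ m, Φ (f' m) = D (Φ m) := by
    intro m
    obtain ⟨m, rfl⟩ := Multiplicative.ofAdd.surjective m
    rw [hf'a, hΦ, hΦ, hD, hact, ← Finset.prod_div_distrib]
    refine Finset.prod_congr rfl fun p _ => ?_
    rw [gD_apply, zpow_sub, div_eq_mul_inv]
  have hg : ∀ m, Φ (g' m) = Nm (Φ m) := by
    intro m
    obtain ⟨m, rfl⟩ := Multiplicative.ofAdd.surjective m
    rw [hg'a, hΦ, hΦ, hN]
    simp only [hact]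
    rw [Finset.prod_comm]
    refine Finset.prod_congr rfl fun p _ => ?_
    rw [gN_apply, prod_zpow_eq]
    congr 1
    exact Fintype.sum_equiv (Equiv.inv G) _ _ fun g => by simp
  have hkg : g'.ker = f'.range := by
    ext m
    obtain ⟨m, rfl⟩ := Multiplicative.ofAdd.surjective m
    have h1 : m ∈ (gN G X).ker ↔ m ∈ (gD X σ).range := by rw [ker_gN hσ]
    constructor
    · intro h
      obtain ⟨n, hn⟩ := h1.1 (show gN G X m = 0 from h)
      exact ⟨Multiplicative.ofAdd n, congrArg Multiplicative.ofAdd hn⟩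
    · rintro ⟨n, hn⟩
      exact (show gN G X m = 0 from h1.2 ⟨Multiplicative.toAdd n, hn⟩)
  let κ : Multiplicative (X → ℤ) := Multiplicative.ofAdd e
  have hκ : Φ.ker = zpowers κ := by
    ext m
    obtain ⟨m, rfl⟩ := Multiplicative.ofAdd.surjective m
    rw [MonoidHom.mem_ker, hΦ, hrel m, mem_zpowers_iff]
    constructor
    · rintro ⟨k, hk⟩
      refine ⟨k, ?_⟩
      show Multiplicative.ofAdd (k • e) = Multiplicative.ofAdd m
      rw [hk]
    · rintro ⟨k, hk⟩
      refine ⟨k, ?_⟩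
      exact (Multiplicative.ofAdd.injective hk).symm
  have hcard : 0 < Nat.card G := Nat.card_pos
  have hfκ : f' κ = 1 := by
    show Multiplicative.ofAdd (gD X σ e) = Multiplicative.ofAdd 0
    congr 1
    ext x
    rw [gD_apply, heg, sub_self]
    rfl
  have hgκ : g' κ = κ ^ Nat.card G := by
    show Multiplicative.ofAdd (gN G X e) = Multiplicative.ofAdd (Nat.card G • e)
    congr 1
    ext x
    rw [gN_apply]
    simp only [heg, Pi.smul_apply]
    rw [Finset.sum_const, Finset.card_univ, Nat.card_eq_fintype_card]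
  have hinf : ∀ k : ℤ, κ ^ k = 1 → k = 0 := by
    intro k hk
    have h1 : k • e = 0 := Multiplicative.ofAdd.injective hk
    by_contra hk0
    apply he0
    ext x
    have h2 := congrFun h1 x
    simp only [Pi.smul_apply, Pi.zero_apply, smul_eq_mul] at h2
    rcases mul_eq_zero.1 h2 with h3 | h3
    · exact absurd h3 hk0
    · exact h3
  have hfg : ∀ m, f' (g' m) = 1 := by
    intro m
    obtain ⟨m, rfl⟩ := Multiplicative.ofAdd.surjective m
    show Multiplicative.ofAdd (gD X σ (gN G X m)) = Multiplicative.ofAdd 0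
    rw [gD_gN]
  have hδ : g'.range.relIndex f'.ker = stabProd G X := (range_gN_relIndex hσ).1
  have hq := herb_quot Φ f' g' D Nm hf hg hfg hkg hδ (range_gN_relIndex hσ).2 hκ hcard hfκ hgκ
    hinf
  have hrange : Φ.range = closure (Set.range u) := by
    apply le_antisymm
    · rintro _ ⟨m, rfl⟩
      obtain ⟨m, rfl⟩ := Multiplicative.ofAdd.surjective m
      rw [hΦ]
      exact prod_mem fun p _ => zpow_mem (Subgroup.subset_closure (Set.mem_range_self p)) _
    · rw [closure_le]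
      rintro _ ⟨x, rfl⟩
      refine ⟨Multiplicative.ofAdd (Pi.single x 1), ?_⟩
      rw [hΦ, Finset.prod_eq_single x]
      · simp
      · intro p _ hp
        simp [hp]
      · intro h
        exact absurd (Finset.mem_univ _) h
  rw [← hrange] at hfin
  have hle : Φ.range ≤ U := by
    rw [hrange, closure_le]
    rintro _ ⟨x, rfl⟩
    exact hu x
  have hDN : ∀ x, D (Nm x) = 1 := by
    intro x
    rw [hD, hN, map_prod, div_eq_one]
    refine Fintype.prod_equiv (Equiv.mulLeft σ) _ _ fun g => ?_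
    rw [Equiv.coe_mulLeft, map_mul]
    rfl
  have hND : ∀ x, Nm (D x) = 1 := by
    intro x
    rw [hN]
    simp only [hD, map_div]
    rw [Finset.prod_div_distrib, div_eq_one]
    refine Fintype.prod_equiv (Equiv.mulRight σ) _ _ fun g => ?_
    rw [Equiv.coe_mulRight, map_mul]
    rfl
  have hUD : U.map D ≤ U := by
    rintro _ ⟨x, hx, rfl⟩
    rw [hD]
    exact div_mem (hU σ x hx) hx
  have hUN : U.map Nm ≤ U := by
    rintro _ ⟨x, hx, rfl⟩
    rw [hN]
    exact prod_mem fun g _ => hU g x hx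
  have hID : Φ.range.map D ≤ Φ.range := by
    rintro _ ⟨_, ⟨m, rfl⟩, rfl⟩
    exact ⟨f' m, hf m⟩
  have hIN : Φ.range.map Nm ≤ Φ.range := by
    rintro _ ⟨_, ⟨m, rfl⟩, rfl⟩
    exact ⟨g' m, hg m⟩
  obtain ⟨h1, h2, h3⟩ := herbrand_index D Nm hle (fun x _ => hDN x) (fun x _ => hND x)
    hUD hID hUN hIN hfin
  obtain ⟨k1, k2, k3⟩ := hq
  refine ⟨?_, h2 k3, h3 k2⟩
  -- hh D Nm U * hh Nm D I = hh D Nm I * hh Nm D U
  have h4 : (Nat.card G * hh Nm D U) * hh D Nm Φ.range =
      (stabProd G X * hh D Nm U) * hh D Nm Φ.range := by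
    calc (Nat.card G * hh Nm D U) * hh D Nm Φ.range
        = Nat.card G * (hh D Nm Φ.range * hh Nm D U) := by ring
      _ = Nat.card G * (hh D Nm U * hh Nm D Φ.range) := by rw [h1]
      _ = hh D Nm U * (Nat.card G * hh Nm D Φ.range) := by ring
      _ = hh D Nm U * (stabProd G X * hh D Nm Φ.range) := by rw [k1]
      _ = _ := by ring
  exact Nat.eq_of_mul_eq_mul_right (Nat.pos_of_ne_zero k3) h4

end Vale.Agent.P022.CFT
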