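import Vale.Agent.P022.H116.SMink
import Vale.Agent.P024.H422.TR

/-!
The first inequality, index form: block (a6).
-/

namespace Vale.Agent.P022.CFT

open NumberField IsDedekindDomain
open Vale.Agent.P024 Vale.Agent.P024.M3
open Vale.Agent.P024.H422.TR (dn mem_dn val_dn exists_dn pow_eq_one pow_le_pow)

section

variable {K L : Type} [Field K] [NumberField K] [Field L] [NumberField L] [Algebra K L]

/-- The inclusion `Kˣ → Lˣ`. -/
abbrev iu (K L : Type) [Field K] [Field L] [Algebra K L] : Kˣ →* Lˣ :=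
  Units.map (algebraMap K L : K →* L)

/-- The norm `Lˣ → Kˣ`. -/
noncomputable abbrev nk (K L : Type) [Field K] [Field L] [Algebra K L] : Lˣ →* Kˣ :=
  Units.map (Algebra.norm K : L →* K)

omit [NumberField K] [NumberField L] in
theorem iu_injective : Function.Injective (iu K L) :=
  Units.map_injective (algebraMap K L).injective

theorem ker_dd_eq [IsGalois K L] (σ : L ≃ₐ[K] L) (hσ : ∀ τ, τ ∈ Subgroup.zpowers σ) :
    (dd σ).ker = (iu K L).range := (H422.TR.propTR K L σ hσ).1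

theorem inf_ker [IsGalois K L] (σ : L ≃ₐ[K] L) (hσ : ∀ τ, τ ∈ Subgroup.zpowers σ)
    (A : Subgroup Lˣ) (B : Subgroup Kˣ) (h : ∀ y : Kˣ, iu K L y ∈ A ↔ y ∈ B) :
    A ⊓ (dd σ).ker = B.map (iu K L) := by
  ext x
  rw [Subgroup.mem_inf, ker_dd_eq σ hσ, Subgroup.mem_map]
  constructor
  · rintro ⟨hA, y, rfl⟩
    exact ⟨y, (h y).mp hA, rfl⟩
  · rintro ⟨y, hy, rfl⟩
    exact ⟨(h y).mpr hy, y, rfl⟩

theorem iu_mem_SU {m : ℕ} (y : Kˣ) : iu K L y ∈ SU L m ↔ y ∈ SU K m := by
  constructor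
  · intro h v hv
    obtain ⟨w, rfl⟩ := exists_dn (L := L) v
    obtain ⟨e, he, hval⟩ := val_dn (F := K) w
    have := h w (fun hw => hv ((mem_dn m w).mpr hw))
    rw [Units.coe_map, show ((algebraMap K L : K →* L) (y : K)) = algebraMap K L y from rfl,
      hval] at this
    exact (pow_eq_one he).mp this
  · intro h w hw
    obtain ⟨e, he, hval⟩ := val_dn (F := K) w
    have := h (dn w) (fun hv => hw ((mem_dn m w).mp hv))
    rw [Units.coe_map, show ((algebraMap K L : K →* L) (y : K)) = algebraMap K L y from rfl,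
      hval, this, one_pow]

theorem iu_nk [IsGalois K L] (x : Lˣ) : iu K L (nk K L x) = nn K L x := by
  apply Units.ext
  show algebraMap K L (Algebra.norm K (x : L)) = _
  rw [Algebra.norm_eq_prod_automorphisms]
  show _ = ((∏ τ : L ≃ₐ[K] L, Units.map (τ : L →* L) x : Lˣ) : L)
  rw [Units.coe_prod]
  rfl

end

/-- **Block (a6)**. -/
theorem propIdx_of (hLI : PropLocInf) (hE1 : PropE1) : PropIdx := by
  intro K L _ _ _ _ _ _ σ hσ m hm hGen hUnr
  obtain ⟨k, hk, hfin, hge⟩ := hLI K L σ hσ m hm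
  obtain ⟨h00, h10, heq⟩ := propSU K L σ hσ m hm
  have h90 := H157.propH90 K L σ hσ (SU L m)
  rw [h90, hE1 K L σ hσ m hm hGen hUnr, mul_one] at heq
  refine ⟨k, hk, ?_⟩
  set W : Subgroup Kˣ := (VS K m k ⊓ TP K) ⊔ NK K L with hW
  have hidx : W.relIndex (SU K m) * (SU K m ⊔ W).index = W.index := by
    rw [← Subgroup.relIndex_sup_right (H := SU K m) (K := W)]
    exact Subgroup.relIndex_mul_index le_sup_right
  set N1 : Subgroup Kˣ := (SU L m).map (nk K L) with hN1
  have hN1W : N1 ≤ W := by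
    refine le_trans ?_ le_sup_right
    rintro _ ⟨x, -, rfl⟩
    exact ⟨x, rfl⟩
  have hh0 : N1.relIndex (SU K m) = h0 (dd σ) (nn K L) (SU L m) := by
    rw [h0, inf_ker σ hσ (SU L m) (SU K m) (fun y => iu_mem_SU y),
      ← Subgroup.relIndex_map_map_of_injective N1 (SU K m) (iu_injective (K := K) (L := L))]
    congr 1
    ext x
    simp only [hN1, Subgroup.mem_map]
    constructor
    · rintro ⟨_, ⟨y, hy, rfl⟩, rfl⟩
      exact ⟨y, hy, (iu_nk y).symm⟩
    · rintro ⟨y, hy, rfl⟩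
      exact ⟨_, ⟨y, hy, rfl⟩, iu_nk y⟩
  have hle : W.relIndex (SU K m) ≤ h0 (dd σ) (nn K L) (SU L m) := by
    rw [← hh0]
    exact Subgroup.relIndex_le_of_le_left hN1W (by rw [hh0]; exact h00)
  have hne : (SU K m ⊔ W).index ≠ 0 := by
    intro h
    rw [h, mul_zero] at hidx
    exact hfin hidx.symm
  refine ⟨hne, ?_⟩
  have h1 : Module.finrank K L * h0 (dd σ) (nn K L) (SU L m) ≤
      (SU K m ⊔ W).index * h0 (dd σ) (nn K L) (SU L m) :=
    calc Module.finrank K L * h0 (dd σ) (nn K L) (SU L m) = dinf K L * dfin K L m := heq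
      _ ≤ W.index := hge
      _ = W.relIndex (SU K m) * (SU K m ⊔ W).index := hidx.symm
      _ ≤ h0 (dd σ) (nn K L) (SU L m) * (SU K m ⊔ W).index := Nat.mul_le_mul_right _ hle
      _ = _ := mul_comm _ _
  exact Nat.le_of_mul_le_mul_right h1 (Nat.pos_of_ne_zero h00)

end Vale.Agent.P022.CFT
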