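import Vale.Agent.P022.H116.Spec
import Vale.Agent.P024.H157.Her1

/-!
The Herbrand quotient of a permutation module of a finite cyclic group.
-/

namespace Vale.Agent.P022.CFT

open MulAction

section Perm

variable {G X : Type} [Group G] [Fintype G] [Fintype X] [MulAction G X]

/-- `σ - 1` on functions. -/
def gD (X : Type) [MulAction G X] (σ : G) : (X → ℤ) →+ (X → ℤ) where
  toFun m := fun x => m (σ⁻¹ • x) - m x
  map_zero' := by ext; simp
  map_add' a b := by ext; simp; ring

/-- The norm on functions. -/
def gN (G X : Type) [Group G] [Fintype G] [MulAction G X] : (X → ℤ) →+ (X → ℤ) where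
  toFun m := fun x => ∑ g : G, m (g • x)
  map_zero' := by ext; simp
  map_add' a b := by ext; simp [Finset.sum_add_distrib]

omit [Fintype G] [Fintype X] in
theorem gD_apply (σ : G) (m : X → ℤ) (x : X) : gD X σ m x = m (σ⁻¹ • x) - m x := rfl

omit [Fintype X] in
theorem gN_apply (m : X → ℤ) (x : X) : gN G X m x = ∑ g : G, m (g • x) := rfl

omit [Fintype X] in
theorem gN_smul (m : X → ℤ) (h : G) (x : X) : gN G X m (h • x) = gN G X m x := by
  rw [gN_apply, gN_apply]
  exact Fintype.sum_equiv (Equiv.mulRight h) _ _ fun g => by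
    rw [Equiv.coe_mulRight, mul_smul]

omit [Fintype X] in
theorem gD_gN (σ : G) (m : X → ℤ) : gD X σ (gN G X m) = 0 := by
  ext x
  rw [gD_apply, gN_smul, sub_self]
  rfl

omit [Fintype X] in
theorem gN_gD (σ : G) (m : X → ℤ) : gN G X (gD X σ m) = 0 := by
  ext x
  rw [gN_apply]
  simp only [gD_apply, Finset.sum_sub_distrib, Pi.zero_apply]
  rw [sub_eq_zero]
  exact Fintype.sum_equiv (Equiv.mulLeft σ⁻¹) _ _ fun g => by
    rw [Equiv.coe_mulLeft, mul_smul]

omit [Fintype X] in
theorem card_fiber [DecidableEq X] (x y : X) (g₀ : G) (hg₀ : g₀ • x = y) :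
    (Finset.univ.filter fun g : G => g • x = y).card = Nat.card (stabilizer G x) := by
  rw [← Fintype.card_subtype, ← Nat.card_eq_fintype_card]
  refine (Nat.card_congr ?_).symm
  exact
    { toFun := fun h => ⟨g₀ * h, by rw [mul_smul, h.2, hg₀]⟩
      invFun := fun g => ⟨g₀⁻¹ * g.1, by
        rw [mem_stabilizer_iff, mul_smul, g.2, ← hg₀, inv_smul_smul]⟩
      left_inv := fun h => by simp
      right_inv := fun g => by simp }

open Classical in
/-- The sum over the orbit. -/
theorem sum_smul (m : X → ℤ) (x : X) : ∑ g : G, m (g • x) =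
    Nat.card (stabilizer G x) *
      ∑ y : X, if (Quotient.mk (orbitRel G X) y) = Quotient.mk (orbitRel G X) x then m y else 0 := by
  have h1 : ∑ g : G, m (g • x) = ∑ y : X, ∑ g : G with g • x = y, m (g • x) :=
    (Finset.sum_fiberwise Finset.univ (fun g : G => g • x) fun g => m (g • x)).symm
  rw [h1, Finset.mul_sum]
  refine Finset.sum_congr rfl fun y _ => ?_
  have h2 : ∑ g : G with g • x = y, m (g • x) = ∑ g : G with g • x = y, m y := by
    refine Finset.sum_congr rfl fun g hg => ?_
    rw [(Finset.mem_filter.1 hg).2]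
  rw [h2, Finset.sum_const]
  by_cases hy : (Quotient.mk (orbitRel G X) y) = Quotient.mk (orbitRel G X) x
  · rw [if_pos hy]
    obtain ⟨g₀, hg₀⟩ : ∃ g : G, g • x = y := orbitRel_apply.1 (Quotient.exact hy)
    rw [card_fiber x y g₀ hg₀]
    simp
  · rw [if_neg hy, mul_zero]
    have h3 : (Finset.univ.filter fun g : G => g • x = y) = ∅ := by
      rw [Finset.filter_eq_empty_iff]
      intro g _ hg
      exact hy (Quotient.sound (orbitRel_apply.2 ⟨g, hg⟩))
    rw [h3]
    simp

/-- `m = ∑ m(x) δ_x`. -/
theorem eq_sum_single [DecidableEq X] (m : X → ℤ) : m = ∑ x, m x • Pi.single x (1 : ℤ) := by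
  ext y
  simp [Finset.sum_apply, Pi.single_apply]

omit [Fintype G] [Fintype X] in
theorem gD_single [DecidableEq X] (σ : G) (x : X) :
    gD X σ (Pi.single x 1) = Pi.single (σ • x) 1 - Pi.single x 1 := by
  ext y
  rw [gD_apply, Pi.sub_apply, Pi.single_apply, Pi.single_apply, Pi.single_apply]
  congr 1
  simp only [inv_smul_eq_iff]

omit [Fintype G] [Fintype X] in
theorem single_sub_mem [DecidableEq X] {σ : G} (hσ : ∀ τ : G, τ ∈ Subgroup.zpowers σ) (g : G) :
    ∀ x : X, (Pi.single (g • x) (1 : ℤ) - Pi.single x 1 : X → ℤ) ∈ (gD X σ).range := by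
  have key : ∀ g ∈ Subgroup.closure {σ}, ∀ x : X,
      (Pi.single (g • x) (1 : ℤ) - Pi.single x 1 : X → ℤ) ∈ (gD X σ).range := by
    intro g hg
    induction hg using Subgroup.closure_induction with
    | mem g hg =>
      intro x
      rw [Set.mem_singleton_iff.1 hg, ← gD_single]
      exact ⟨_, rfl⟩
    | one => intro x; rw [one_smul, sub_self]; exact zero_mem _
    | mul g h _ _ ihg ihh =>
      intro x
      have := add_mem (ihg (h • x)) (ihh x)
      rwa [← mul_smul, sub_add_sub_cancel] at this
    | inv g _ ih =>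
      intro x
      have := neg_mem (ih (g⁻¹ • x))
      rwa [smul_inv_smul, neg_sub] at this
  refine key g ?_
  rw [← Subgroup.zpowers_eq_closure]
  exact hσ g

theorem ker_gN {σ : G} (hσ : ∀ τ : G, τ ∈ Subgroup.zpowers σ) :
    (gN G X).ker = (gD X σ).range := by
  classical
  apply le_antisymm
  · intro m hm
    have h0 : ∀ x : X, (∑ y : X, if (Quotient.mk (orbitRel G X) y) = Quotient.mk (orbitRel G X) x
        then m y else 0) = 0 := by
      intro x
      have h1 : gN G X m x = 0 := congrFun (AddMonoidHom.mem_ker.1 hm) x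
      rw [gN_apply, sum_smul] at h1
      rcases mul_eq_zero.1 h1 with h2 | h2
      · exact absurd h2 (by exact_mod_cast Nat.card_pos.ne')
      · exact h2
    let o : X → X := fun x => (Quotient.mk (orbitRel G X) x).out
    have ho : ∀ x, ∃ g : G, g • x = o x := fun x =>
      orbitRel_apply.1 (Quotient.mk_out (s := orbitRel G X) x)
    have h1 : ∑ x, m x • (Pi.single (o x) (1 : ℤ) : X → ℤ) = 0 := by
      ext z
      rw [Finset.sum_apply, Pi.zero_apply]
      by_cases hz : o z = z
      · rw [← h0 z]
        refine Finset.sum_congr rfl fun y _ => ?_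
        rw [Pi.smul_apply, Pi.single_apply, smul_eq_mul]
        by_cases hy : (Quotient.mk (orbitRel G X) y) = Quotient.mk (orbitRel G X) z
        · have : z = o y := by
            show z = (Quotient.mk (orbitRel G X) y).out
            rw [hy]
            exact hz.symm
          rw [if_pos this, if_pos hy, mul_one]
        · rw [if_neg hy, if_neg, mul_zero]
          intro h
          apply hy
          have h2 : Quotient.mk (orbitRel G X) (o y) = Quotient.mk (orbitRel G X) y :=
            Quotient.out_eq _
          rw [← h2, ← h]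
      · refine Finset.sum_eq_zero fun y _ => ?_
        rw [Pi.smul_apply, Pi.single_apply, if_neg, smul_zero]
        intro h
        apply hz
        have h2 : Quotient.mk (orbitRel G X) (o y) = Quotient.mk (orbitRel G X) y :=
          Quotient.out_eq _
        show (Quotient.mk (orbitRel G X) z).out = z
        rw [h, h2]
    have h2 : m = -∑ x, m x • (Pi.single (o x) (1 : ℤ) - Pi.single x 1 : X → ℤ) := by
      simp only [smul_sub, Finset.sum_sub_distrib]
      rw [h1, zero_sub, neg_neg, ← eq_sum_single]
    rw [h2]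
    refine neg_mem (sum_mem fun x _ => zsmul_mem ?_ _)
    obtain ⟨g, hg⟩ := ho x
    rw [← hg]
    exact single_sub_mem hσ g x
  · rintro _ ⟨m, rfl⟩
    exact gN_gD σ m

omit [Fintype G] [Fintype X] in
theorem mem_ker_gD {σ : G} (hσ : ∀ τ : G, τ ∈ Subgroup.zpowers σ) (m : X → ℤ) :
    m ∈ (gD X σ).ker ↔ ∀ (g : G) x, m (g • x) = m x := by
  constructor
  · intro hm g
    have key : ∀ g ∈ Subgroup.closure {σ}, ∀ x : X, m (g • x) = m x := by
      intro g hg
      induction hg using Subgroup.closure_induction with
      | mem g hg =>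
        intro x
        rw [Set.mem_singleton_iff.1 hg]
        have h1 : gD X σ m (σ • x) = 0 := congrFun (AddMonoidHom.mem_ker.1 hm) (σ • x)
        rw [gD_apply, inv_smul_smul, sub_eq_zero] at h1
        exact h1.symm
      | one => intro x; rw [one_smul]
      | mul g h _ _ ihg ihh => intro x; rw [mul_smul, ihg, ihh]
      | inv g _ ih =>
        intro x
        rw [← ih (g⁻¹ • x), smul_inv_smul]
    refine key g ?_
    rw [← Subgroup.zpowers_eq_closure]
    exact hσ g
  · intro h
    rw [AddMonoidHom.mem_ker]
    ext x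
    rw [gD_apply, h, sub_self]
    rfl

theorem range_gN_relIndex {σ : G} (hσ : ∀ τ : G, τ ∈ Subgroup.zpowers σ) :
    (gN G X).range.relIndex (gD X σ).ker = stabProd G X ∧ stabProd G X ≠ 0 := by
  classical
  let Ω := orbitRel.Quotient G X
  let q : X → Ω := fun x => Quotient.mk (orbitRel G X) x
  let ψ : (Ω → ℤ) →+ (X → ℤ) :=
    { toFun := fun a x => a (q x)
      map_zero' := rfl
      map_add' := fun _ _ => rfl }
  have hψ : Function.Injective ψ := by
    intro a b h
    ext ω
    have := congrFun h ω.out
    change a (q ω.out) = b (q ω.out) at this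
    have hq : q ω.out = ω := Quotient.out_eq ω
    rwa [hq] at this
  let n : Ω → ℕ := fun ω => Nat.card (stabilizer G ω.out)
  have hn : ∀ ω, n ω ≠ 0 := fun ω => Nat.card_pos.ne'
  have hout : ∀ x, ∃ g : G, g • (q x).out = x := by
    intro x
    have := orbitRel_apply.1 (Quotient.mk_out (s := orbitRel G X) x)
    obtain ⟨g, hg⟩ := this
    refine ⟨g⁻¹, ?_⟩
    have hg' : g • x = (q x).out := hg
    rw [← hg', inv_smul_smul]
  have h1 : (gD X σ).ker = ψ.range := by
    ext m
    rw [mem_ker_gD hσ]
    constructor
    · intro h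
      refine ⟨fun ω => m ω.out, ?_⟩
      ext x
      obtain ⟨g, hg⟩ := hout x
      change m (q x).out = m x
      rw [← h g (q x).out, hg]
    · rintro ⟨a, rfl⟩ g x
      change a (q (g • x)) = a (q x)
      congr 1
      exact Quotient.sound (orbitRel_apply.2 ⟨g, rfl⟩)
  have h2 : (gN G X).range =
      (AddSubgroup.pi Set.univ fun ω => AddSubgroup.zmultiples (n ω : ℤ)).map ψ := by
    ext m
    constructor
    · rintro ⟨m, rfl⟩
      refine ⟨fun ω => gN G X m ω.out, ?_, ?_⟩
      · intro ω _
        change gN G X m ω.out ∈ AddSubgroup.zmultiples (n ω : ℤ)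
        rw [gN_apply, sum_smul, AddSubgroup.mem_zmultiples_iff]
        exact ⟨_, by rw [smul_eq_mul, mul_comm]⟩
      · ext x
        obtain ⟨g, hg⟩ := hout x
        change gN G X m (q x).out = gN G X m x
        rw [← gN_smul m g, hg]
    · rintro ⟨a, ha, rfl⟩
      have h3 : ∀ ω, ∃ b : ℤ, b * n ω = a ω := by
        intro ω
        have : a ω ∈ AddSubgroup.zmultiples (n ω : ℤ) := ha ω (Set.mem_univ _)
        rw [AddSubgroup.mem_zmultiples_iff] at this
        simpa using this
      choose b hb using h3
      let m₀ : X → ℤ := fun x => if (q x).out = x then b (q x) else 0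
      refine ⟨m₀, ?_⟩
      ext x
      obtain ⟨g, hg⟩ := hout x
      rw [← hg, gN_smul, gN_apply, sum_smul m₀]
      have h4 : ∀ y : X, (if (Quotient.mk (orbitRel G X) y) =
          Quotient.mk (orbitRel G X) (q x).out then m₀ y else 0) =
          if y = (q x).out then b (q x) else 0 := by
        intro y
        show (if (Quotient.mk (orbitRel G X) y) = Quotient.mk (orbitRel G X) (q x).out then
          (if (q y).out = y then b (q y) else 0) else 0) = _
        have hq : Quotient.mk (orbitRel G X) (q x).out = q x := Quotient.out_eq _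
        rw [hq]
        by_cases hy : y = (q x).out
        · subst hy
          have : q (q x).out = q x := hq
          rw [if_pos hq, if_pos rfl, if_pos, this]
          rw [this]
        · rw [if_neg hy]
          by_cases hy2 : Quotient.mk (orbitRel G X) y = q x
          · rw [if_pos hy2, if_neg]
            intro h5
            apply hy
            rw [← hy2]
            exact h5.symm
          · rw [if_neg hy2]
      rw [Finset.sum_congr rfl fun y _ => h4 y, Finset.sum_ite_eq' Finset.univ,
        if_pos (Finset.mem_univ _)]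
      change ((n (q x) : ℕ) : ℤ) * b (q x) = a (q (g • (q x).out))
      have h5 : q (g • (q x).out) = q x := by rw [hg]
      rw [h5, ← hb, mul_comm]
  have h3 : (gN G X).range.relIndex (gD X σ).ker = ∏ ω, n ω := by
    rw [h1, h2, AddMonoidHom.range_eq_map,
      AddSubgroup.relIndex_map_map_of_injective _ _ hψ, AddSubgroup.relIndex_top_right,
      AddSubgroup.index_pi]
    refine Finset.prod_congr rfl fun ω _ => ?_
    rw [Int.index_zmultiples, Int.natAbs_natCast]
  have h4 : stabProd G X = ∏ ω, n ω := by
    rw [stabProd, finprod_eq_prod_of_fintype]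
  rw [h4]
  exact ⟨h3, Finset.prod_ne_zero_iff.2 fun ω _ => hn ω⟩

end Perm

end Vale.Agent.P022.CFT
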