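import Vale.Agent.P022.H116.SUnit
import Vale.Agent.P024.H157.PropsH

/-!
The Herbrand quotient of the units outside `m`: block (a1).
-/

namespace Vale.Agent.P022.CFT

open NumberField IsDedekindDomain MulAction Module
open Vale.Agent.P024.H903 Vale.Agent.P024

variable {F L : Type} [Field F] [NumberField F] [Field L] [NumberField L] [Algebra F L]

theorem finite_PL (L : Type) [Field L] [NumberField L] {m : ℕ} (hm : 0 < m) :
    Finite (PL L m) := by
  have h0 : Ideal.span {(m : 𝓞 L)} ≠ ⊥ := by
    rw [Ne, Ideal.span_singleton_eq_bot]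
    exact_mod_cast hm.ne'
  have h1 := Ideal.finite_factors h0
  refine (h1.subset ?_).to_subtype
  intro w hw
  show w.asIdeal ∣ Ideal.span {(m : 𝓞 L)}
  rw [Ideal.dvd_span_singleton]
  exact hw

omit [NumberField F] in
theorem vh_gp (g : L ≃ₐ[F] L) (w : HeightOneSpectrum (𝓞 L)) (x : Lˣ) :
    vh w (Units.mapEquiv (g : L ≃* L) x) = vh (gp g⁻¹ w) x := by
  have h1 : gp g (gp g⁻¹ w) = w := by rw [← gp_mul, mul_inv_cancel, gp_one]
  have h2 := val_gp g (gp g⁻¹ w) (x : L)
  rw [h1] at h2
  show Multiplicative.ofAdd (WithZero.log (w.valuation L (g (x : L)))) =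
    Multiplicative.ofAdd (WithZero.log ((gp g⁻¹ w).valuation L (x : L)))
  rw [h2]

/-- **Units outside `m`**: a permutation module of finite index modulo one relation. -/
theorem smink [IsGalois F L] {m : ℕ} [Fintype (PL L m)] :
    ∃ u : InfinitePlace L ⊕ PL L m → Lˣ, (∀ x, u x ∈ SU L m) ∧
      (∀ (g : L ≃ₐ[F] L) x, u (g • x) = Units.mapEquiv (g : L ≃* L) (u x)) ∧
      (Subgroup.closure (Set.range u)).relIndex (SU L m) ≠ 0 ∧
      ∃ e : InfinitePlace L ⊕ PL L m → ℤ, e ≠ 0 ∧ (∀ (g : L ≃ₐ[F] L) x, e (g • x) = e x) ∧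
        ∀ a : InfinitePlace L ⊕ PL L m → ℤ, ∏ x, u x ^ a x = 1 ↔ ∃ k : ℤ, a = k • e := by
  classical
  obtain ⟨u₀, hu₀g, hu₀f, e₀, he₀p, he₀g, hrel⟩ := mink' (F := F) (L := L)
  have hπ : ∀ y : PL L m, ∃ (h : ℕ) (π : Lˣ), 0 < h ∧ ∀ w : HeightOneSpectrum (𝓞 L),
      vh w π = if w = y.1 then Multiplicative.ofAdd (-(h : ℤ)) else 1 := by
    intro y
    obtain ⟨h, π₀, hh, hπ₀, hπy, hπw⟩ := exists_gen (𝓞 L) y.1
    have hπ₀' : algebraMap (𝓞 L) L π₀ ≠ 0 := by
      rw [ne_eq, FaithfulSMul.algebraMap_eq_zero_iff]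
      exact hπ₀
    refine ⟨h, Units.mk0 (algebraMap (𝓞 L) L π₀) hπ₀', hh, fun w => ?_⟩
    show Multiplicative.ofAdd (WithZero.log (w.valuation L (algebraMap (𝓞 L) L π₀))) = _
    rw [HeightOneSpectrum.valuation_of_algebraMap]
    split_ifs with hw
    · rw [hw, hπy, WithZero.log_exp]
    · rw [hπw w hw, WithZero.log_one, ofAdd_zero]
  choose h₀ π hh₀ hπv using hπ
  let ρ : (L ≃ₐ[F] L) → Lˣ →* Lˣ := fun g => (Units.mapEquiv (g : L ≃* L)).toMonoidHom
  have hρ : ∀ g h x, ρ (g * h) x = ρ g (ρ h x) := fun g h x => by ext; rfl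
  let u₁ : PL L m → Lˣ := avg ρ π
  have hu₁ : ∀ (g : L ≃ₐ[F] L) y, u₁ (g • y) = Units.mapEquiv (g : L ≃* L) (u₁ y) :=
    fun g y => avg_smul hρ π g y
  let H : PL L m → ℕ := fun y => (tr (L ≃ₐ[F] L) y).card * h₀ (rep (L ≃ₐ[F] L) y)
  have hH : ∀ y, 0 < H y := fun y => Nat.mul_pos (Finset.card_pos.2 (tr_nonempty y)) (hh₀ _)
  have hu₁v : ∀ (w : HeightOneSpectrum (𝓞 L)) (y : PL L m),
      vh w (u₁ y) = if w = y.1 then Multiplicative.ofAdd (-(H y : ℤ)) else 1 := by
    intro w y
    show vh w (∏ g ∈ tr (L ≃ₐ[F] L) y, ρ g (π (rep (L ≃ₐ[F] L) y))) = _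
    rw [map_prod]
    have h1 : ∀ g ∈ tr (L ≃ₐ[F] L) y, vh w (ρ g (π (rep (L ≃ₐ[F] L) y))) =
        if w = y.1 then Multiplicative.ofAdd (-(h₀ (rep (L ≃ₐ[F] L) y) : ℤ)) else 1 := by
      intro g hg
      have h2 : vh w (ρ g (π (rep (L ≃ₐ[F] L) y))) = vh (gp g⁻¹ w) (π (rep (L ≃ₐ[F] L) y)) :=
        vh_gp g w _
      rw [h2, hπv]
      rw [mem_tr] at hg
      have h3 : gp g (rep (L ≃ₐ[F] L) y).1 = y.1 := congrArg Subtype.val hg
      have h4 : gp g⁻¹ w = (rep (L ≃ₐ[F] L) y).1 ↔ w = y.1 := by
        constructor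
        · intro h
          rw [← h3, ← h, ← gp_mul, mul_inv_cancel, gp_one]
        · intro h
          rw [h, ← h3, ← gp_mul, inv_mul_cancel, gp_one]
      simp only [h4]
    rw [Finset.prod_congr rfl h1, Finset.prod_const]
    split_ifs with hw
    · rw [← ofAdd_nsmul]
      congr 1
      show _ = -(((tr (L ≃ₐ[F] L) y).card * h₀ (rep (L ≃ₐ[F] L) y) : ℕ) : ℤ)
      push_cast
      rw [nsmul_eq_mul]
      ring
    · rw [one_pow]
  let u : InfinitePlace L ⊕ PL L m → Lˣ := Sum.elim (fun w => ui L (u₀ w)) u₁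
  have hul : ∀ w, u (Sum.inl w) = ui L (u₀ w) := fun w => rfl
  have hur : ∀ y, u (Sum.inr y) = u₁ y := fun g => rfl
  have hSU : ∀ x : Lˣ, x ∈ SU L m ↔ ∀ w : HeightOneSpectrum (𝓞 L), (m : 𝓞 L) ∉ w.asIdeal →
      vh w x = 1 := by
    intro x
    refine forall_congr' fun w => ?_
    rw [vh_eq_one]
  have huU : ∀ x, u x ∈ SU L m := by
    rintro (w | y)
    · rw [hul]
      intro w' _
      exact val_ui w' _
    · rw [hur, hSU]
      intro w' hw'
      rw [hu₁v, if_neg]
      rintro rfl
      exact hw' y.2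
  have hvl : ∀ (w' : HeightOneSpectrum (𝓞 L)) (w : InfinitePlace L),
      vh w' (u (Sum.inl w)) = 1 := fun w' w => (vh_eq_one w' _).mpr (val_ui w' _)
  have hvp : ∀ (y : PL L m) (c : PL L m → ℤ),
      vh y.1 (∏ y', u (Sum.inr y') ^ c y') = Multiplicative.ofAdd (-(H y : ℤ) * c y) := by
    intro y c
    rw [map_prod, Finset.prod_eq_single y]
    · rw [map_zpow, hur, hu₁v, if_pos rfl, ← ofAdd_zsmul, smul_eq_mul, mul_comm]
    · intro y' _ hy'
      rw [map_zpow, hur, hu₁v, if_neg, one_zpow]
      intro h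
      exact hy' (Subtype.ext h.symm)
    · intro hg
      exact absurd (Finset.mem_univ y) hg
  have hul' : ∀ a : InfinitePlace L → ℤ, ∏ w, u (Sum.inl w) ^ a w = ui L (∏ w, u₀ w ^ a w) := by
    intro a
    rw [map_prod]
    exact Finset.prod_congr rfl fun w _ => by rw [map_zpow, hul]
  have hIU : Subgroup.closure (Set.range u) ≤ SU L m := by
    rw [Subgroup.closure_le]
    rintro _ ⟨x, rfl⟩
    exact huU x
  refine ⟨u, huU, ?_, ?_, Sum.elim e₀ fun _ => 0, ?_, ?_, ?_⟩
  · rintro g (w | y)
    · apply Units.ext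
      exact hu₀g g w
    · exact hu₁ g y
  · let f : Lˣ →* (PL L m → Multiplicative ℤ) := MonoidHom.pi fun y => vh y.1
    have hf : ∀ x y, f x y = vh y.1 x := fun x g => rfl
    rw [H157.relIndex_eq_map_mul_ker f hIU]
    apply mul_ne_zero
    · have : ∀ y, NeZero (H y) := fun y => ⟨(hH y).ne'⟩
      let q : (PL L m → Multiplicative ℤ) →* ((y : PL L m) → Multiplicative (ZMod (H y))) :=
        MonoidHom.pi fun y => (AddMonoidHom.toMultiplicative (Int.castAddHom (ZMod (H y)))).comp
          (Pi.evalMonoidHom _ y)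
      have hq : q.ker ≤ (Subgroup.closure (Set.range u)).map f := by
        intro a ha
        have h1 : ∀ y, ∃ c : ℤ, Multiplicative.toAdd (a y) = H y * c := by
          intro y
          have h2 := congrFun (MonoidHom.mem_ker.mp ha) y
          have h3 : ((Multiplicative.toAdd (a y) : ℤ) : ZMod (H y)) = 0 := h2
          exact (ZMod.intCast_zmod_eq_zero_iff_dvd _ _).mp h3
        choose c hc using h1
        refine ⟨∏ y', u (Sum.inr y') ^ (-c y'), ?_, ?_⟩
        · exact Subgroup.prod_mem _ fun g _ =>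
            Subgroup.zpow_mem _ (Subgroup.subset_closure (Set.mem_range_self _)) _
        · funext y
          rw [hf, hvp y fun y => -c y]
          apply Multiplicative.toAdd.injective
          rw [hc, toAdd_ofAdd]
          ring
      have hqi : q.ker.index ≠ 0 := by
        have : q.ker.FiniteIndex := Subgroup.finiteIndex_ker q
        exact Subgroup.FiniteIndex.index_ne_zero
      have h1 : ((Subgroup.closure (Set.range u)).map f).index ≠ 0 := by
        intro h0
        have := Subgroup.index_dvd_of_le hq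
        rw [h0, zero_dvd_iff] at this
        exact hqi this
      intro h0
      have := Subgroup.relIndex_dvd_index_of_normal ((Subgroup.closure (Set.range u)).map f)
        ((SU L m).map f)
      rw [h0, zero_dvd_iff] at this
      exact h1 this
    · have hUf : SU L m ⊓ f.ker = (⊤ : Subgroup (𝓞 L)ˣ).map (ui L) := by
        apply le_antisymm
        · rintro x ⟨hx1, hx2⟩
          have h1 : ∀ w : HeightOneSpectrum (𝓞 L), w.valuation L (x : L) = 1 := by
            intro w
            by_cases hw : (m : 𝓞 L) ∈ w.asIdeal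
            · exact (vh_eq_one _ _).mp (congrFun (MonoidHom.mem_ker.mp hx2) ⟨w, hw⟩)
            · exact hx1 w hw
          obtain ⟨v, hv⟩ := exists_ui x h1
          exact ⟨v, trivial, hv⟩
        · rintro _ ⟨v, -, rfl⟩
          exact ⟨fun w _ => val_ui w v,
            MonoidHom.mem_ker.mpr (funext fun g => (vh_eq_one _ _).mpr (val_ui _ v))⟩
      have hIf : (Subgroup.closure (Set.range u₀)).map (ui L) ≤
          Subgroup.closure (Set.range u) ⊓ f.ker := by
        rw [Subgroup.map_le_iff_le_comap, Subgroup.closure_le]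
        rintro _ ⟨w, rfl⟩
        exact ⟨Subgroup.subset_closure ⟨Sum.inl w, rfl⟩,
          MonoidHom.mem_ker.mpr (funext fun g => (vh_eq_one _ _).mpr (val_ui _ _))⟩
      intro h0
      have h1 := Subgroup.relIndex_dvd_of_le_left (SU L m ⊓ f.ker) hIf
      rw [h0, zero_dvd_iff, hUf, Subgroup.relIndex_map_map, top_sup_eq,
        Subgroup.relIndex_top_right, (MonoidHom.ker_eq_bot_iff _).mpr ui_injective,
        sup_bot_eq] at h1
      exact Subgroup.FiniteIndex.index_ne_zero h1
  · intro h0
    obtain ⟨w₀⟩ : Nonempty (InfinitePlace L) := inferInstance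
    have := congrFun h0 (Sum.inl w₀)
    have h1 := he₀p w₀
    simp only [Sum.elim_inl, Pi.zero_apply] at this
    omega
  · rintro g (w | y)
    · exact he₀g g w
    · rfl
  · intro a
    rw [Fintype.prod_sum_type]
    constructor
    · intro h1
      have h2 : ∀ y, a (Sum.inr y) = 0 := by
        intro y
        have h3 := congrArg (vh y.1) h1
        rw [map_mul, map_one, hvp y fun y => a (Sum.inr y), map_prod,
          Finset.prod_eq_one (fun w _ => by rw [map_zpow, hvl, one_zpow]), one_mul] at h3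
        have h4 : -(H y : ℤ) * a (Sum.inr y) = 0 := h3
        rcases mul_eq_zero.mp h4 with h5 | h5
        · have := hH y
          omega
        · exact h5
      have h6 : ∏ y : PL L m, u (Sum.inr y) ^ a (Sum.inr y) = 1 :=
        Finset.prod_eq_one fun g _ => by rw [h2, zpow_zero]
      rw [h6, mul_one, hul' fun w => a (Sum.inl w), ← map_one (ui L)] at h1
      obtain ⟨k, hk⟩ := (hrel _).mp (ui_injective h1)
      refine ⟨k, ?_⟩
      funext x
      rcases x with w | y
      · exact congrFun hk w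
      · rw [h2]; simp
    · rintro ⟨k, rfl⟩
      have h6 : ∏ y : PL L m, u (Sum.inr y) ^
          (k • (Sum.elim e₀ fun _ => 0 : InfinitePlace L ⊕ PL L m → ℤ)) (Sum.inr y) = 1 :=
        Finset.prod_eq_one fun g _ => by simp
      rw [h6, mul_one, hul' fun w =>
        (k • (Sum.elim e₀ fun _ => 0 : InfinitePlace L ⊕ PL L m → ℤ)) (Sum.inl w)]
      have h7 : ∏ w, u₀ w ^ (k • (Sum.elim e₀ fun _ => 0 :
          InfinitePlace L ⊕ PL L m → ℤ)) (Sum.inl w) = 1 := by
        rw [hrel]
        exact ⟨k, by funext w; simp⟩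
      rw [h7, map_one]

theorem card_stab_eq {G X : Type} [Group G] [MulAction G X] {x y : X}
    (h : Quotient.mk (orbitRel G X) x = Quotient.mk (orbitRel G X) y) :
    Nat.card (stabilizer G x) = Nat.card (stabilizer G y) := by
  obtain ⟨g, hg⟩ := orbitRel_apply.1 (Quotient.exact h)
  have hg' : g • y = x := hg
  rw [← hg']
  exact Nat.card_congr (stabilizerEquivStabilizer (g := g) rfl).toEquiv.symm

/-- The orbits of a disjoint union. -/
theorem stabProd_sum (G X Y : Type) [Group G] [MulAction G X] [MulAction G Y] [Finite X]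
    [Finite Y] : stabProd G (X ⊕ Y) = stabProd G X * stabProd G Y := by
  classical
  have := Fintype.ofFinite X
  have := Fintype.ofFinite Y
  have := Fintype.ofFinite (orbitRel.Quotient G X)
  have := Fintype.ofFinite (orbitRel.Quotient G Y)
  have := Fintype.ofFinite (orbitRel.Quotient G (X ⊕ Y))
  rw [stabProd, stabProd, stabProd, finprod_eq_prod_of_fintype, finprod_eq_prod_of_fintype,
    finprod_eq_prod_of_fintype]
  symm
  let c : orbitRel.Quotient G X ⊕ orbitRel.Quotient G Y → ℕ :=
    Sum.elim (fun ω => Nat.card (stabilizer G ω.out)) (fun ω => Nat.card (stabilizer G ω.out))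
  have hc : (∏ ω : orbitRel.Quotient G X, Nat.card (stabilizer G ω.out)) *
      ∏ ω : orbitRel.Quotient G Y, Nat.card (stabilizer G ω.out) = ∏ z, c z :=
    (Fintype.prod_sum_type c).symm
  rw [hc]
  let f : orbitRel.Quotient G X → orbitRel.Quotient G (X ⊕ Y) := Quotient.map Sum.inl (by
    intro a b h
    obtain ⟨g, hg⟩ := orbitRel_apply.1 h
    exact orbitRel_apply.2 ⟨g, congrArg Sum.inl hg⟩)
  let f' : orbitRel.Quotient G Y → orbitRel.Quotient G (X ⊕ Y) := Quotient.map Sum.inr (by
    intro a b h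
    obtain ⟨g, hg⟩ := orbitRel_apply.1 h
    exact orbitRel_apply.2 ⟨g, congrArg Sum.inr hg⟩)
  refine Fintype.prod_bijective (Sum.elim f f') ⟨?_, ?_⟩ _ _ ?_
  · rintro (a | a) (b | b) h
    · induction a using Quotient.inductionOn
      induction b using Quotient.inductionOn
      congr 1
      obtain ⟨g, hg⟩ := orbitRel_apply.1 (Quotient.exact h)
      exact Quotient.sound (orbitRel_apply.2 ⟨g, Sum.inl_injective hg⟩)
    · exfalso
      induction a using Quotient.inductionOn
      induction b using Quotient.inductionOn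
      obtain ⟨g, hg⟩ := orbitRel_apply.1 (Quotient.exact h)
      exact Sum.inr_ne_inl hg
    · exfalso
      induction a using Quotient.inductionOn
      induction b using Quotient.inductionOn
      obtain ⟨g, hg⟩ := orbitRel_apply.1 (Quotient.exact h)
      exact Sum.inl_ne_inr hg
    · induction a using Quotient.inductionOn
      induction b using Quotient.inductionOn
      congr 1
      obtain ⟨g, hg⟩ := orbitRel_apply.1 (Quotient.exact h)
      exact Quotient.sound (orbitRel_apply.2 ⟨g, Sum.inr_injective hg⟩)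
  · intro z
    induction z using Quotient.inductionOn with
    | h z =>
      rcases z with x | y
      · exact ⟨Sum.inl (Quotient.mk _ x), rfl⟩
      · exact ⟨Sum.inr (Quotient.mk _ y), rfl⟩
  · have hl : ∀ x : X, Nat.card (stabilizer G (Sum.inl x : X ⊕ Y)) = Nat.card (stabilizer G x) := by
      intro x
      refine Nat.card_congr (Equiv.subtypeEquivRight fun g => ?_)
      rw [mem_stabilizer_iff, mem_stabilizer_iff]
      exact Sum.inl_injective.eq_iff
    have hr : ∀ y : Y, Nat.card (stabilizer G (Sum.inr y : X ⊕ Y)) = Nat.card (stabilizer G y) := by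
      intro y
      refine Nat.card_congr (Equiv.subtypeEquivRight fun g => ?_)
      rw [mem_stabilizer_iff, mem_stabilizer_iff]
      exact Sum.inr_injective.eq_iff
    rintro (a | a)
    · show Nat.card (stabilizer G a.out) = Nat.card (stabilizer G (f a).out)
      rw [← hl]
      apply card_stab_eq
      have h1 : Quotient.mk (orbitRel G (X ⊕ Y)) (f a).out = f a := Quotient.out_eq _
      rw [h1]
      have h2 : f (Quotient.mk (orbitRel G X) a.out) =
        Quotient.mk (orbitRel G (X ⊕ Y)) (Sum.inl a.out) := rfl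
      rw [← h2]
      congr 1
      exact Quotient.out_eq a
    · show Nat.card (stabilizer G a.out) = Nat.card (stabilizer G (f' a).out)
      rw [← hr]
      apply card_stab_eq
      have h1 : Quotient.mk (orbitRel G (X ⊕ Y)) (f' a).out = f' a := Quotient.out_eq _
      rw [h1]
      have h2 : f' (Quotient.mk (orbitRel G Y) a.out) =
        Quotient.mk (orbitRel G (X ⊕ Y)) (Sum.inr a.out) := rfl
      rw [← h2]
      congr 1
      exact Quotient.out_eq a

/-- **Block (a1).** -/
theorem propSU : PropSU := by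
  intro K L _ _ _ _ _ _ σ hσ m hm
  classical
  have hfin := finite_PL L hm
  have hfin' := Fintype.ofFinite (PL L m)
  obtain ⟨u, huU, hug, hfi, e, he0, heg, hrel⟩ := smink (F := K) (L := L) (m := m)
  let ρ : (L ≃ₐ[K] L) →* MulAut Lˣ :=
    { toFun := fun g => Units.mapEquiv (g : L ≃* L)
      map_one' := by ext; rfl
      map_mul' := fun g h => by ext; rfl }
  have key := herbX (X := InfinitePlace L ⊕ PL L m) ρ hσ
    (M3.dd σ) (M3.nn K L) (fun x => rfl) (fun x => rfl) (SU L m) (by
      intro g x hx w hw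
      have h1 : gp g (gp g⁻¹ w) = w := by rw [← gp_mul, mul_inv_cancel, gp_one]
      have h2 := val_gp g (gp g⁻¹ w) (x : L)
      rw [h1] at h2
      refine h2.trans (hx _ ?_)
      intro h3
      apply hw
      rw [← h1]
      exact gp_natCast g h3) u huU hug hfi e he0 heg hrel
  rw [IsGalois.card_aut_eq_finrank, stabProd_sum] at key
  exact ⟨key.2.2, key.2.1, key.1⟩

end Vale.Agent.P022.CFT
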