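import Vale.Agent.P022.H116.HerbX
import Vale.Agent.P024.H903.VUnit

/-!
The Herbrand quotient of the units outside `m`.
-/

namespace Vale.Agent.P022.CFT

open NumberField IsDedekindDomain MulAction
open Vale.Agent.P024.H903

section Avg

variable {G X A : Type} [Group G] [Fintype G] [MulAction G X] [CommGroup A]

/-- The representative of the orbit. -/
noncomputable def rep (G : Type) {X : Type} [Group G] [MulAction G X] (x : X) : X :=
  (Quotient.mk (orbitRel G X) x).out

omit [Fintype G] in
theorem rep_smul (g : G) (x : X) : rep G (g • x) = rep G x := by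
  have : Quotient.mk (orbitRel G X) (g • x) = Quotient.mk (orbitRel G X) x :=
    Quotient.sound (orbitRel_apply.mpr ⟨g, rfl⟩)
  show (Quotient.mk _ (g • x)).out = (Quotient.mk _ x).out
  rw [this]

omit [Fintype G] in
theorem exists_rep (x : X) : ∃ g : G, g • rep G x = x := by
  have h := Quotient.mk_out (s := orbitRel G X) x
  obtain ⟨g, hg⟩ := orbitRel_apply.mp h
  refine ⟨g⁻¹, ?_⟩
  have hg' : g • x = rep G x := hg
  rw [← hg', inv_smul_smul]

open Classical in
/-- The set of the elements which map the representative to `x`. -/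
noncomputable def tr (G : Type) {X : Type} [Group G] [Fintype G] [MulAction G X] (x : X) :
    Finset G := Finset.univ.filter fun g => g • rep G x = x

theorem mem_tr {x : X} {g : G} : g ∈ tr G x ↔ g • rep G x = x := by
  classical
  rw [tr, Finset.mem_filter]
  exact and_iff_right (Finset.mem_univ _)

theorem tr_nonempty (x : X) : (tr G x).Nonempty := by
  obtain ⟨g, hg⟩ := exists_rep (G := G) x
  exact ⟨g, mem_tr.2 hg⟩

/-- The equivariant family of a family. -/
noncomputable def avg (ρ : G → A →* A) (η : X → A) (x : X) : A :=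
  ∏ g ∈ tr G x, ρ g (η (rep G x))

theorem avg_smul {ρ : G → A →* A} (hρ : ∀ g h x, ρ (g * h) x = ρ g (ρ h x)) (η : X → A) (h : G)
    (x : X) : avg ρ η (h • x) = ρ h (avg ρ η x) := by
  rw [avg, avg, map_prod]
  refine Finset.prod_bij' (fun g _ => h⁻¹ * g) (fun g _ => h * g) ?_ ?_ ?_ ?_ ?_
  · intro g hg
    rw [mem_tr, rep_smul] at hg
    rw [mem_tr, mul_smul, hg, inv_smul_smul]
  · intro g hg
    rw [mem_tr] at hg
    rw [mem_tr, rep_smul, mul_smul, hg]
  · intro g _
    rw [mul_inv_cancel_left]
  · intro g _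
    rw [inv_mul_cancel_left]
  · intro g _
    rw [rep_smul, ← hρ, mul_inv_cancel_left]

end Avg

section Mink

variable {F L : Type} [Field F] [NumberField F] [Field L] [NumberField L] [Algebra F L]

/-- An equivariant family of Minkowski units. -/
theorem exists_family' [IsGalois F L] :
    ∃ u : InfinitePlace L → (𝓞 L)ˣ,
      (∀ (g : L ≃ₐ[F] L) (w : InfinitePlace L), u (g • w) = uact g (u w)) ∧
      ∀ w w' : InfinitePlace L, w' ≠ w → Real.log (w' ((u w : 𝓞 L) : L)) < 0 := by
  classical
  have hη := fun w : InfinitePlace L => Units.dirichletUnitTheorem.exists_unit L w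
  choose η hη using hη
  refine ⟨avg (fun g : L ≃ₐ[F] L => uact g) η, ?_, ?_⟩
  · intro g w
    exact avg_smul (ρ := fun g : L ≃ₐ[F] L => uact g) (fun g h x => by
      apply Units.ext
      apply RingOfIntegers.ext
      rfl) η g w
  · intro w w' hw
    have hprod : ∀ (s : Finset (L ≃ₐ[F] L)) (f : (L ≃ₐ[F] L) → (𝓞 L)ˣ),
        Real.log (w' (((∏ g ∈ s, f g : (𝓞 L)ˣ) : 𝓞 L) : L)) =
          ∑ g ∈ s, Real.log (w' ((f g : 𝓞 L) : L)) := by
      intro s f
      induction s using Finset.induction_on with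
      | empty => simp
      | insert a s ha ih =>
        rw [Finset.prod_insert ha, Finset.sum_insert ha, c_mul, map_mul, Real.log_mul, ih]
        · exact (Units.pos_at_place _ w').ne'
        · exact (Units.pos_at_place _ w').ne'
    rw [avg, hprod]
    refine Finset.sum_neg (fun g hg => ?_) (tr_nonempty w)
    have h1 : w' (((uact g (η (rep (L ≃ₐ[F] L) w)) : (𝓞 L)ˣ) : 𝓞 L) : L) =
        (g⁻¹ • w') ((η (rep (L ≃ₐ[F] L) w) : 𝓞 L) : L) := by
      rw [InfinitePlace.smul_apply, uact_coe]
      rfl
    rw [h1]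
    apply hη
    intro h2
    apply hw
    rw [mem_tr] at hg
    rw [inv_smul_eq_iff, hg] at h2
    exact h2

/-- **Minkowski units** of a Galois extension, with all their relations. -/
theorem mink' [IsGalois F L] :
      ∃ u : InfinitePlace L → (𝓞 L)ˣ,
        (∀ (g : L ≃ₐ[F] L) (w : InfinitePlace L),
          ((u (g • w) : 𝓞 L) : L) = g ((u w : 𝓞 L) : L)) ∧
        (Subgroup.closure (Set.range u)).FiniteIndex ∧
        ∃ e : InfinitePlace L → ℤ, (∀ w, 0 < e w) ∧
          (∀ (g : L ≃ₐ[F] L) (w : InfinitePlace L), e (g • w) = e w) ∧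
          ∀ a : InfinitePlace L → ℤ, ∏ w, u w ^ a w = 1 ↔ ∃ k : ℤ, a = k • e := by
  obtain ⟨u, hug, hul⟩ := exists_family' (F := F) (L := L)
  obtain ⟨e, hpos, hrel⟩ := exists_rel u hul
  refine ⟨u, fun g w => by rw [hug]; rfl, finite_index u hul, e, hpos, ?_, hrel⟩
  intro g
  have h1 : ∏ w, u w ^ e (g • w) = 1 := by
    apply uact_injective g
    rw [map_prod, map_one]
    have h2 : ∏ w, uact g (u w ^ e (g • w)) = ∏ w, u (g • w) ^ e (g • w) :=
      Finset.prod_congr rfl fun w _ => by rw [map_zpow, hug]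
    rw [h2]
    have h3 := Fintype.prod_equiv (MulAction.toPerm g : Equiv.Perm (InfinitePlace L))
      (fun w => u (g • w) ^ e (g • w)) (fun w => u w ^ e w) fun w => rfl
    rw [h3]
    exact (hrel e).mpr ⟨1, (one_smul _ _).symm⟩
  obtain ⟨k, hk⟩ := (hrel fun w => e (g • w)).mp h1
  have hk' : ∀ w, e (g • w) = k * e w := fun w => by
    have := congrFun hk w
    rwa [Pi.smul_apply, smul_eq_mul] at this
  have hsum : ∑ w, e (g • w) = ∑ w, e w :=
    Fintype.sum_equiv (MulAction.toPerm g : Equiv.Perm (InfinitePlace L)) _ _ fun w => rfl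
  have hS : 0 < ∑ w, e w := Finset.sum_pos (fun w _ => hpos w) Finset.univ_nonempty
  have hk1 : k = 1 := by
    rw [Finset.sum_congr rfl fun w _ => hk' w, ← Finset.mul_sum] at hsum
    exact mul_right_cancel₀ hS.ne' (by rw [hsum, one_mul])
  intro w
  rw [hk', hk1, one_mul]

end Mink

end Vale.Agent.P022.CFT
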