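import Vale.Agent.P022.Iface
import Vale.Agent.P024.M3.Defs
import Vale.Agent.P024.H903.VUnit

/-! Class field theory over a number field: exact statements of the blocks of the first
inequality (package P12a) and of its output. -/

namespace Vale.Agent.P022.CFT

open NumberField IsDedekindDomain UniqueFactorizationMonoid
open Vale.Agent.P024.M3 (h0 h1 e1 dd nn RR VS Unr)
open Vale.Agent.P024.H903 (gp gp_mul gp_one)

noncomputable section

/-! ### Ray characters -/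

section ray

variable {K : Type} [Field K] [NumberField K] {A : Type*} [CommGroup A]

/-- `∏ Y(𝔭)^{v_𝔭(I)}`. -/
def evI (Y : Ideal (𝓞 K) → A) (I : Ideal (𝓞 K)) : A := ((normalizedFactors I).map Y).prod

/-- `Y` is a narrow ray class character modulo `M`. -/
def IsRC (M : ℕ) (Y : Ideal (𝓞 K) → A) : Prop :=
  ∀ α : 𝓞 K, α ≠ 0 → α - 1 ∈ idl K M → (∀ φ : K →+* ℝ, 0 < φ α) → evI Y (Ideal.span {α}) = 1

/-- `Y` is trivial away from the nonzero primes not dividing `M`. -/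
def Nrm (M : ℕ) (Y : Ideal (𝓞 K) → A) : Prop :=
  ∀ 𝔭 : Ideal (𝓞 K), ¬ (𝔭.IsPrime ∧ 𝔭 ≠ ⊥ ∧ (M : 𝓞 K) ∉ 𝔭) → Y 𝔭 = 1

end ray

/-- **(A)** First inequality for a cyclic extension, dual form; `T` is a finite set of
rational primes to be avoided by the modulus. -/
def FI_statement : Prop :=
  ∀ (K L : Type) [Field K] [NumberField K] [Field L] [NumberField L] [Algebra K L] [IsGalois K L]
    (σ : L ≃ₐ[K] L), (∀ τ, τ ∈ Subgroup.zpowers σ) → ∀ T : Finset ℕ,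
    (∀ p ∈ T, p.Prime → ∀ 𝔭 : Ideal (𝓞 K), 𝔭.IsPrime → (p : 𝓞 K) ∈ 𝔭 → Unram K L 𝔭) →
    ∃ M : ℕ, 0 < M ∧ (∀ p ∈ T, p.Prime → ¬ p ∣ M) ∧
      (∀ 𝔭 : Ideal (𝓞 K), 𝔭.IsPrime → 𝔭 ≠ ⊥ → ¬ Unram K L 𝔭 → (M : 𝓞 K) ∈ 𝔭) ∧
      ∃ X : Subgroup (Ideal (𝓞 K) → ℂˣ), Finite X ∧ Module.finrank K L ≤ Nat.card X ∧
        ∀ Y ∈ X, Nrm M Y ∧ IsRC M Y ∧
          ∀ 𝔭 : Ideal (𝓞 K), 𝔭.IsPrime → 𝔭 ≠ ⊥ → (M : 𝓞 K) ∉ 𝔭 → ∀ τ : L ≃ₐ[K] L,
            IsFrob K L 𝔭 τ → Y 𝔭 ^ orderOf τ = 1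

/-- **(REM)** if for every finite set `T` of primes not dividing `R` there is a modulus
prime to `T` for `Y`, then there is a modulus supported at `R`. -/
def REM_statement : Prop :=
  ∀ (K : Type) [Field K] [NumberField K] (A : Type) [CommGroup A] (Y : Ideal (𝓞 K) → A) (R : ℕ),
    0 < R → (∀ T : Finset ℕ, (∀ p ∈ T, p.Prime ∧ ¬ p ∣ R) →
      ∃ M : ℕ, 0 < M ∧ (∀ p ∈ T, ¬ p ∣ M) ∧ IsRC M Y) →
    ∃ a : ℕ, IsRC (R ^ a) Y

/-! ### The blocks of (A) -/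

section blocks

variable (K L : Type) [Field K] [NumberField K] [Field L] [NumberField L] [Algebra K L]

/-- The units outside `m`. -/
def SU (m : ℕ) : Subgroup Lˣ where
  carrier := {x | ∀ w : HeightOneSpectrum (𝓞 L), (m : 𝓞 L) ∉ w.asIdeal →
    w.valuation L (x : L) = 1}
  one_mem' := by intro w _; simp
  mul_mem' := by intro x y hx hy w hw; simp [hx w hw, hy w hw]
  inv_mem' := by intro x hx w hw; simp [hx w hw]

/-- The totally positive elements. -/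
def TP : Subgroup Kˣ where
  carrier := {x | ∀ φ : K →+* ℝ, 0 < φ (x : K)}
  one_mem' := by intro φ; simp
  mul_mem' := by intro x y hx hy φ; rw [Units.val_mul, map_mul]; exact mul_pos (hx φ) (hy φ)
  inv_mem' := by
    intro x hx φ
    rw [Units.val_inv_eq_inv_val, map_inv₀]
    exact inv_pos.2 (hx φ)

/-- The norms. -/
def NK : Subgroup Kˣ := (Units.map (Algebra.norm K : L →* K)).range

/-- Every prime not dividing `m` is principal up to primes dividing `m`. -/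
def Gen (m : ℕ) : Prop := ∀ v : HeightOneSpectrum (𝓞 L), (m : 𝓞 L) ∉ v.asIdeal →
  ∃ x : Lˣ, v.valuation L (x : L) = WithZero.exp (-1 : ℤ) ∧
    ∀ w : HeightOneSpectrum (𝓞 L), w ≠ v → (m : 𝓞 L) ∉ w.asIdeal → w.valuation L (x : L) = 1

/-- The primes of `L` above `m`. -/
abbrev PL (m : ℕ) : Type := {w : HeightOneSpectrum (𝓞 L) // (m : 𝓞 L) ∈ w.asIdeal}

variable {K L} in
theorem gp_natCast (g : L ≃ₐ[K] L) {w : HeightOneSpectrum (𝓞 L)} {m : ℕ}
    (h : (m : 𝓞 L) ∈ w.asIdeal) : (m : 𝓞 L) ∈ (gp g w).asIdeal := by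
  rw [Vale.Agent.P024.H903.mem_gp, map_natCast]
  exact h

instance actPL (m : ℕ) : MulAction (L ≃ₐ[K] L) (PL L m) where
  smul g w := ⟨gp g w.1, gp_natCast g w.2⟩
  one_smul w := Subtype.ext (gp_one w.1)
  mul_smul g h w := Subtype.ext (gp_mul g h w.1)

/-- The product over the orbits of the orders of the stabilizers. -/
def stabProd (G X : Type) [Group G] [MulAction G X] : ℕ :=
  ∏ᶠ ω : MulAction.orbitRel.Quotient G X, Nat.card (MulAction.stabilizer G ω.out)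

/-- The product of the local degrees at infinity. -/
def dinf : ℕ := stabProd (L ≃ₐ[K] L) (InfinitePlace L)

/-- The product of the local degrees at the primes dividing `m`. -/
def dfin (m : ℕ) : ℕ := stabProd (L ≃ₐ[K] L) (PL L m)

end blocks

/-- (a1) Herbrand quotient of the `m`-units. -/
def PropSU : Prop := ∀ (K L : Type) [Field K] [NumberField K] [Field L] [NumberField L]
  [Algebra K L] [IsGalois K L] (σ : L ≃ₐ[K] L), (∀ τ, τ ∈ Subgroup.zpowers σ) →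
  ∀ m : ℕ, 0 < m → h0 (dd σ) (nn K L) (SU L m) ≠ 0 ∧ h1 (dd σ) (nn K L) (SU L m) ≠ 0 ∧
    Module.finrank K L * h0 (dd σ) (nn K L) (SU L m) =
      dinf K L * dfin K L m * h1 (dd σ) (nn K L) (SU L m)

/-- (a2) local index at the finite primes (inside `Lˣ`, with `(dd σ).ker = Kˣ`). -/
def PropLoc : Prop := ∀ (K L : Type) [Field K] [NumberField K] [Field L] [NumberField L]
  [Algebra K L] [IsGalois K L] (σ : L ≃ₐ[K] L), (∀ τ, τ ∈ Subgroup.zpowers σ) →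
  ∀ m : ℕ, 0 < m → ∃ k : ℕ, 1 ≤ k ∧
    ((VS L m k ⊓ (dd σ).ker) ⊔ (nn K L).range).relIndex (dd σ).ker ≠ 0 ∧
    dfin K L m ≤ ((VS L m k ⊓ (dd σ).ker) ⊔ (nn K L).range).relIndex (dd σ).ker

/-- (a3) local index with signs. -/
def PropLocInf : Prop := ∀ (K L : Type) [Field K] [NumberField K] [Field L] [NumberField L]
  [Algebra K L] [IsGalois K L] (σ : L ≃ₐ[K] L), (∀ τ, τ ∈ Subgroup.zpowers σ) →
  ∀ m : ℕ, 0 < m → ∃ k : ℕ, 1 ≤ k ∧
    ((VS K m k ⊓ TP K) ⊔ NK K L).index ≠ 0 ∧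
    dinf K L * dfin K L m ≤ ((VS K m k ⊓ TP K) ⊔ NK K L).index

/-- (a4) class groups are generated by primes dividing some `m` prime to a given `t`. -/
def PropGen : Prop := ∀ (L : Type) [Field L] [NumberField L] (t : ℕ), 0 < t →
  ∃ m : ℕ, 0 < m ∧ Nat.Coprime m t ∧ Gen L m

/-- (a5) -/
def PropE1 : Prop := ∀ (K L : Type) [Field K] [NumberField K] [Field L] [NumberField L]
  [Algebra K L] [IsGalois K L] (σ : L ≃ₐ[K] L), (∀ τ, τ ∈ Subgroup.zpowers σ) →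
  ∀ m : ℕ, 0 < m → Gen K m → (∀ w : HeightOneSpectrum (𝓞 L), (m : 𝓞 L) ∉ w.asIdeal → Unr K w) →
    e1 (dd σ) (SU L m) = 1

/-- (a6) the first inequality, index form. -/
def PropIdx : Prop := ∀ (K L : Type) [Field K] [NumberField K] [Field L] [NumberField L]
  [Algebra K L] [IsGalois K L] (σ : L ≃ₐ[K] L), (∀ τ, τ ∈ Subgroup.zpowers σ) →
  ∀ m : ℕ, 0 < m → Gen K m → (∀ w : HeightOneSpectrum (𝓞 L), (m : 𝓞 L) ∉ w.asIdeal → Unr K w) →
    ∃ k : ℕ, 1 ≤ k ∧ (SU K m ⊔ ((VS K m k ⊓ TP K) ⊔ NK K L)).index ≠ 0 ∧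
      Module.finrank K L ≤ (SU K m ⊔ ((VS K m k ⊓ TP K) ⊔ NK K L)).index

/-- (GL1) trivial inertia implies ramification index one. -/
def PropUnr : Prop := ∀ (K L : Type) [Field K] [NumberField K] [Field L] [NumberField L]
  [Algebra K L] [IsGalois K L] (w : HeightOneSpectrum (𝓞 L)),
  Unram K L (w.asIdeal.comap (algebraMap (𝓞 K) (𝓞 L))) ↔ Unr K w

/-- (GL2) the residue degree divides the order of Frobenius. -/
def PropFrob : Prop := ∀ (K L : Type) [Field K] [NumberField K] [Field L] [NumberField L]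
  [Algebra K L] [IsGalois K L] (𝔭 : Ideal (𝓞 K)), 𝔭.IsPrime → 𝔭 ≠ ⊥ → ∀ τ : L ≃ₐ[K] L,
  IsFrob K L 𝔭 τ → ∃ P : Ideal (𝓞 L), P.IsPrime ∧
    P.comap (algebraMap (𝓞 K) (𝓞 L)) = 𝔭 ∧ ∃ f : ℕ, f ∣ orderOf τ ∧
    Ideal.absNorm P = Ideal.absNorm 𝔭 ^ f

end

end Vale.Agent.P022.CFT
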